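import Crest.Agent.Lib.L1Cot.Markov

set_option autoImplicit false
set_option linter.unusedSectionVars false

open Finset

namespace Crest.Agent.Lib.L1Cot

variable {V : Type*} [Fintype V]

/-- Auxiliary form of the cut decomposition of a real function on a finite set. -/
lemma cut_rep_aux (S : Finset ℝ) : ∀ a : V → ℝ, (∀ k, a k ∈ S) →
    ∃ (r : ℕ) (v : ℝ) (δ : Fin r → ℝ) (s : Fin r → V → ℝ), (∀ c, 0 ≤ δ c) ∧
      (∀ c k, s c k = 0 ∨ s c k = 1) ∧ (∀ k, a k = v + ∑ c, δ c * s c k) ∧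
      (∀ k l, |a k - a l| = ∑ c, δ c * |s c k - s c l|) := by
  induction S using Finset.induction_on_min with
  | empty =>
    intro a ha
    refine ⟨0, 0, Fin.elim0, Fin.elim0, fun c => c.elim0, fun c => c.elim0,
      fun k => absurd (ha k) (by simp), fun k => absurd (ha k) (by simp)⟩
  | insert v₀ S' hv₀ ih =>
    intro a ha
    by_cases hne : S'.Nonempty
    · set v₁ := S'.min' hne with hv₁
      have hv₁mem : v₁ ∈ S' := S'.min'_mem hne
      have hv₀₁ : v₀ < v₁ := hv₀ _ hv₁mem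
      have hle : ∀ x ∈ S', v₁ ≤ x := fun x hx => S'.min'_le x hx
      classical
      have hcase : ∀ k, (a k = v₀ ∧ max (a k) v₁ = v₁) ∨ (v₁ ≤ a k ∧ a k ∈ S' ∧ max (a k) v₁ = a k) := by
        intro k
        rcases mem_insert.mp (ha k) with h | h
        · left
          refine ⟨h, ?_⟩
          rw [h]; exact max_eq_right hv₀₁.le
        · right
          exact ⟨hle _ h, h, max_eq_left (hle _ h)⟩
      obtain ⟨r, v, δ, s, hδ, hs, hrep, habs⟩ := ih (fun k => max (a k) v₁) (fun k => by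
        rcases hcase k with ⟨_, h⟩ | ⟨_, h1, h⟩
        · simp only [h]; exact hv₁mem
        · simp only [h]; exact h1)
      let s₀ : V → ℝ := fun k => if v₀ < a k then 1 else 0
      have hs₀ : ∀ k, (a k = v₀ ∧ max (a k) v₁ = v₁ ∧ s₀ k = 0) ∨
          (v₁ ≤ a k ∧ max (a k) v₁ = a k ∧ s₀ k = 1) := by
        intro k
        rcases hcase k with ⟨h1, h2⟩ | ⟨h1, _, h3⟩
        · left
          refine ⟨h1, h2, ?_⟩
          simp only [s₀]
          rw [if_neg (by rw [h1]; exact lt_irrefl _)]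
        · right
          refine ⟨h1, h3, ?_⟩
          simp only [s₀]
          rw [if_pos (lt_of_lt_of_le hv₀₁ h1)]
      refine ⟨r + 1, v - (v₁ - v₀), Fin.cons (v₁ - v₀) δ, Fin.cons s₀ s, ?_, ?_, ?_, ?_⟩
      · intro c
        refine Fin.cases ?_ (fun c => ?_) c
        · simpa using hv₀₁.le
        · simpa using hδ c
      · intro c k
        refine Fin.cases ?_ (fun c => ?_) c
        · simp only [Fin.cons_zero]
          rcases hs₀ k with ⟨_, _, h⟩ | ⟨_, _, h⟩
          · exact Or.inl h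
          · exact Or.inr h
        · simpa using hs c k
      · intro k
        rw [Fin.sum_univ_succ]
        simp only [Fin.cons_zero, Fin.cons_succ]
        have h := hrep k
        rcases hs₀ k with ⟨h1, h2, h3⟩ | ⟨h1, h2, h3⟩
        · rw [h2] at h
          rw [h3, h1]
          linarith
        · rw [h2] at h
          rw [h3]
          linarith
      · intro k l
        rw [Fin.sum_univ_succ]
        simp only [Fin.cons_zero, Fin.cons_succ]
        rw [← habs k l]
        rcases hs₀ k with ⟨h1, h2, h3⟩ | ⟨h1, h2, h3⟩ <;>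
          rcases hs₀ l with ⟨h4, h5, h6⟩ | ⟨h4, h5, h6⟩
        · rw [h2, h5, h3, h6, h1, h4]; simp
        · rw [h2, h5, h3, h6, h1]
          have h7 : |v₀ - a l| = a l - v₀ := by rw [abs_of_nonpos (by linarith)]; ring
          have h8 : |v₁ - a l| = a l - v₁ := by rw [abs_of_nonpos (by linarith)]; ring
          rw [h7, h8]
          norm_num
        · rw [h2, h5, h3, h6, h4]
          have h7 : |a k - v₀| = a k - v₀ := abs_of_nonneg (by linarith)
          have h8 : |a k - v₁| = a k - v₁ := abs_of_nonneg (by linarith)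
          rw [h7, h8]
          norm_num
        · rw [h2, h5, h3, h6]; simp
    · have hS' : S' = ∅ := not_nonempty_iff_eq_empty.mp hne
      subst hS'
      have hconst : ∀ k, a k = v₀ := fun k => by simpa using ha k
      refine ⟨0, v₀, Fin.elim0, Fin.elim0, fun c => c.elim0, fun c => c.elim0, fun k => ?_, fun k l => ?_⟩
      · simp [hconst k]
      · simp [hconst k, hconst l]

/-- Cut decomposition of a real function on a finite set. -/
lemma cut_rep (a : V → ℝ) :
    ∃ (r : ℕ) (v : ℝ) (δ : Fin r → ℝ) (s : Fin r → V → ℝ), (∀ c, 0 ≤ δ c) ∧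
      (∀ c k, s c k = 0 ∨ s c k = 1) ∧ (∀ k, a k = v + ∑ c, δ c * s c k) ∧
      (∀ k l, |a k - a l| = ∑ c, δ c * |s c k - s c l|) := by
  classical
  exact cut_rep_aux (image a univ) a (fun k => mem_image_of_mem a (mem_univ k))

/-- The median-of-three polynomial. -/
noncomputable def phi (u : ℝ) : ℝ := 3 * u ^ 2 - 2 * u ^ 3

lemma phi_lip (u v θ : ℝ) (hu0 : 0 ≤ u) (hu1 : u ≤ 1) (hv0 : 0 ≤ v) (hv1 : v ≤ 1) (hθ : 0 < θ) :
    |phi u - phi v| ≤ (3 / 2) * θ * (u * (1 - u) + v * (1 - v)) + (3 / (4 * θ) + 1) * (u - v) ^ 2 := by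
  set A := u * (1 - u) + v * (1 - v) with hA
  set w := |u - v| with hw
  have hw0 : 0 ≤ w := abs_nonneg _
  have hw1 : w ≤ 1 := by
    rw [hw, abs_le]; constructor <;> linarith
  have hw2 : (u - v) ^ 2 = w ^ 2 := by rw [hw, sq_abs]
  have hA0 : 0 ≤ A := add_nonneg (mul_nonneg hu0 (by linarith)) (mul_nonneg hv0 (by linarith))
  have hA1 : A ≤ 1 / 2 := by
    rw [hA]; nlinarith [sq_nonneg (u - 1 / 2), sq_nonneg (v - 1 / 2)]
  have h1 : phi u - phi v = (u - v) * (3 * A + (u - v) ^ 2) := by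
    simp only [phi, hA]; ring
  have h2 : |phi u - phi v| = w * (3 * A + w ^ 2) := by
    have h0 : 0 ≤ 3 * A + (u - v) ^ 2 := by positivity
    rw [h1, abs_mul, abs_of_nonneg h0, hw2]
  rw [h2, hw2]
  set κ := 1 / θ with hκ
  have hκ0 : 0 < κ := by positivity
  have hκθ : κ * θ = 1 := by rw [hκ]; field_simp
  have h3 : 3 / (4 * θ) = (3 / 4) * κ := by rw [hκ]; field_simp
  rw [h3]
  have h4 : 0 ≤ A * κ * (θ - w) ^ 2 := by positivity
  have h5 : A * κ * (θ - w) ^ 2 = A * θ * (κ * θ) - 2 * A * w * (κ * θ) + A * κ * w ^ 2 := by ring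
  rw [h5, hκθ] at h4
  have h6 : A * κ * w ^ 2 ≤ (1 / 2) * κ * w ^ 2 :=
    mul_le_mul_of_nonneg_right (mul_le_mul_of_nonneg_right hA1 hκ0.le) (sq_nonneg w)
  have h7 : w * w ^ 2 ≤ w ^ 2 := by nlinarith [sq_nonneg w]
  nlinarith

lemma phi_zero_bound (g : ℝ) (h0 : 0 ≤ g) (h1 : g ≤ 1) : |phi g - 0| ≤ (3 / 2) * g := by
  rw [sub_zero, abs_le]
  simp only [phi]
  constructor
  · nlinarith [mul_nonneg h0 h0, mul_nonneg (mul_nonneg h0 h0) (sub_nonneg.mpr h1)]
  · nlinarith [mul_nonneg h0 (sq_nonneg (g - 3 / 4))]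

lemma phi_one_bound (g : ℝ) (h0 : 0 ≤ g) (h1 : g ≤ 1) : |phi g - 1| ≤ (3 / 2) * (1 - g) := by
  have h := phi_zero_bound (1 - g) (by linarith) (by linarith)
  have e : phi (1 - g) - 0 = -(phi g - 1) := by simp only [phi]; ring
  rwa [e, abs_neg] at h

variable {M : V → V → ℝ}

/-- The absolute value pseudo-metric. -/
def dabs (a : V → ℝ) (k l : V) : ℝ := |a k - a l|

lemma dabs_nonneg (a : V → ℝ) (k l : V) : 0 ≤ dabs a k l := abs_nonneg _

/-- Barycentre of a cut. -/
noncomputable def gg (M : V → V → ℝ) (s : V → ℝ) (i : V) : ℝ := ∑ k, M i k * s k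

lemma gg_nonneg (hM0 : ∀ i j, 0 ≤ M i j) {s : V → ℝ} (hs : ∀ k, s k = 0 ∨ s k = 1) (i : V) :
    0 ≤ gg M s i := by
  refine sum_nonneg fun k _ => mul_nonneg (hM0 i k) ?_
  rcases hs k with h | h <;> rw [h] <;> norm_num

lemma gg_le_one (hM0 : ∀ i j, 0 ≤ M i j) (hM1 : ∀ i, ∑ j, M i j = 1) {s : V → ℝ}
    (hs : ∀ k, s k = 0 ∨ s k = 1) (i : V) : gg M s i ≤ 1 := by
  calc gg M s i ≤ ∑ k, M i k * 1 := sum_le_sum fun k _ => mul_le_mul_of_nonneg_left (by
        rcases hs k with h | h <;> rw [h] <;> norm_num) (hM0 i k)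
    _ = 1 := by simp [hM1]

lemma abs_cut {s : V → ℝ} (hs : ∀ k, s k = 0 ∨ s k = 1) (k l : V) :
    dabs s k l = s k * (1 - s l) + s l * (1 - s k) := by
  simp only [dabs]
  rcases hs k with h | h <;> rcases hs l with h' | h' <;> rw [h, h'] <;> norm_num

lemma Bb_cut (hM1 : ∀ i, ∑ j, M i j = 1) {s : V → ℝ} (hs : ∀ k, s k = 0 ∨ s k = 1) (i j : V) :
    Bb M (dabs s) i j = gg M s i * (1 - gg M s j) + gg M s j * (1 - gg M s i) := by
  have h1 : ∀ z, G M (dabs s) z i = gg M s i * (1 - s z) + s z * (1 - gg M s i) := by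
    intro z
    simp only [G, abs_cut hs, gg]
    have : ∀ k, M i k * (s k * (1 - s z) + s z * (1 - s k)) =
        M i k * s k * (1 - s z) + s z * M i k - s z * (M i k * s k) := fun k => by ring
    simp only [this, sum_sub_distrib, sum_add_distrib, ← sum_mul, ← mul_sum, hM1]
    ring
  simp only [Bb, h1]
  have : ∀ z, M j z * (gg M s i * (1 - s z) + s z * (1 - gg M s i)) =
      gg M s i * M j z - gg M s i * (M j z * s z) + (1 - gg M s i) * (M j z * s z) := fun z => by ring
  simp only [this, sum_sub_distrib, sum_add_distrib, ← mul_sum, hM1]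
  change gg M s i * 1 - gg M s i * gg M s j + (1 - gg M s i) * gg M s j = _
  ring

lemma T_eq_half_Bb (d : V → V → ℝ) (i : V) : T M d i = (1 / 2) * Bb M d i i := rfl

lemma T_cut (hM1 : ∀ i, ∑ j, M i j = 1) {s : V → ℝ} (hs : ∀ k, s k = 0 ∨ s k = 1) (i : V) :
    T M (dabs s) i = gg M s i * (1 - gg M s i) := by
  rw [T_eq_half_Bb, Bb_cut hM1 hs]
  ring

lemma e_cut (hM1 : ∀ i, ∑ j, M i j = 1) {s : V → ℝ} (hs : ∀ k, s k = 0 ∨ s k = 1) (i j : V) :
    e M (dabs s) i j = (gg M s i - gg M s j) ^ 2 := by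
  rw [e, Bb_cut hM1 hs, T_cut hM1 hs, T_cut hM1 hs]
  ring

lemma cut_dist (hM0 : ∀ i j, 0 ≤ M i j) (hM1 : ∀ i, ∑ j, M i j = 1) {s : V → ℝ}
    (hs : ∀ k, s k = 0 ∨ s k = 1) (i : V) :
    |phi (gg M s i) - s i| ≤ (3 / 2) * ∑ k, M i k * |s i - s k| := by
  have h0 := gg_nonneg hM0 hs i
  have h1 := gg_le_one hM0 hM1 hs i
  rcases hs i with h | h
  · rw [h]
    have e1 : ∑ k, M i k * |0 - s k| = gg M s i := by
      refine sum_congr rfl fun k _ => ?_
      congr 1
      rcases hs k with h' | h' <;> rw [h'] <;> norm_num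
    rw [e1]
    exact phi_zero_bound _ h0 h1
  · rw [h]
    have e1 : ∑ k, M i k * |1 - s k| = 1 - gg M s i := by
      have : ∀ k, M i k * |1 - s k| = M i k - M i k * s k := fun k => by
        rcases hs k with h' | h' <;> rw [h'] <;> norm_num
      simp only [this, sum_sub_distrib, hM1]
      rfl
    rw [e1]
    exact phi_one_bound _ h0 h1

/-! ### Linearity in the metric -/

lemma G_hasSum {ι : Type*} {dc : ι → V → V → ℝ} {d : V → V → ℝ}
    (h : ∀ k l, HasSum (fun c => dc c k l) (d k l)) (z i : V) :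
    HasSum (fun c => G M (dc c) z i) (G M d z i) :=
  hasSum_sum fun k _ => (h k z).mul_left _

lemma Bb_hasSum {ι : Type*} {dc : ι → V → V → ℝ} {d : V → V → ℝ}
    (h : ∀ k l, HasSum (fun c => dc c k l) (d k l)) (i j : V) :
    HasSum (fun c => Bb M (dc c) i j) (Bb M d i j) :=
  hasSum_sum fun z _ => (G_hasSum h z i).mul_left _

lemma T_hasSum {ι : Type*} {dc : ι → V → V → ℝ} {d : V → V → ℝ}
    (h : ∀ k l, HasSum (fun c => dc c k l) (d k l)) (i : V) :
    HasSum (fun c => T M (dc c) i) (T M d i) :=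
  (Bb_hasSum h i i).mul_left _

lemma e_hasSum {ι : Type*} {dc : ι → V → V → ℝ} {d : V → V → ℝ}
    (h : ∀ k l, HasSum (fun c => dc c k l) (d k l)) (i j : V) :
    HasSum (fun c => e M (dc c) i j) (e M d i j) :=
  ((Bb_hasSum h i j).sub (T_hasSum h i)).sub (T_hasSum h j)

lemma Bb_smul (δ : ℝ) (d : V → V → ℝ) (i j : V) :
    Bb M (fun k l => δ * d k l) i j = δ * Bb M d i j := by
  simp only [Bb, G, mul_sum]
  refine sum_congr rfl fun z _ => sum_congr rfl fun k _ => by ring

lemma T_smul (δ : ℝ) (d : V → V → ℝ) (i : V) :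
    T M (fun k l => δ * d k l) i = δ * T M d i := by
  rw [T_eq_half_Bb, T_eq_half_Bb, Bb_smul]
  ring

lemma e_smul (δ : ℝ) (d : V → V → ℝ) (i j : V) :
    e M (fun k l => δ * d k l) i j = δ * e M d i j := by
  simp only [e, Bb_smul, T_smul]
  ring

/-- Per-coordinate construction. -/
lemma coord (hM0 : ∀ i j, 0 ≤ M i j) (hM1 : ∀ i, ∑ j, M i j = 1) (a : V → ℝ) :
    ∃ Y : V → ℝ, (∀ i, |Y i - a i| ≤ (3 / 2) * ∑ k, M i k * |a i - a k|) ∧
      (∀ i j θ, 0 < θ → |Y i - Y j| ≤ (3 / 2) * θ * (T M (dabs a) i + T M (dabs a) j) +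
        (3 / (4 * θ) + 1) * e M (dabs a) i j) ∧
      (∀ i j, 0 ≤ e M (dabs a) i j) := by
  obtain ⟨r, v, δ, s, hδ, hs, hrep, habs⟩ := cut_rep a
  have hsum : ∀ k l, HasSum (fun c => (fun k l => δ c * dabs (s c) k l) k l) (dabs a k l) := by
    intro k l
    have : dabs a k l = ∑ c, δ c * dabs (s c) k l := habs k l
    rw [this]
    exact hasSum_fintype _
  have hT : ∀ i, T M (dabs a) i = ∑ c, δ c * (gg M (s c) i * (1 - gg M (s c) i)) := by
    intro i
    have h1 := T_hasSum (M := M) hsum i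
    simp only [T_smul] at h1
    rw [h1.unique (hasSum_fintype _)]
    exact sum_congr rfl fun c _ => by rw [T_cut hM1 (hs c)]
  have he : ∀ i j, e M (dabs a) i j = ∑ c, δ c * (gg M (s c) i - gg M (s c) j) ^ 2 := by
    intro i j
    have h1 := e_hasSum (M := M) hsum i j
    simp only [e_smul] at h1
    rw [h1.unique (hasSum_fintype _)]
    exact sum_congr rfl fun c _ => by rw [e_cut hM1 (hs c)]
  refine ⟨fun i => v + ∑ c, δ c * phi (gg M (s c) i), ?_, ?_, ?_⟩
  · intro i
    have e1 : (v + ∑ c, δ c * phi (gg M (s c) i)) - a i =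
        ∑ c, δ c * (phi (gg M (s c) i) - s c i) := by
      rw [hrep i]
      simp only [mul_sub, sum_sub_distrib]
      ring
    simp only []
    rw [e1]
    refine (abs_sum_le_sum_abs _ _).trans ?_
    calc ∑ c, |δ c * (phi (gg M (s c) i) - s c i)|
        ≤ ∑ c, δ c * ((3 / 2) * ∑ k, M i k * |s c i - s c k|) := sum_le_sum fun c _ => by
          rw [abs_mul, abs_of_nonneg (hδ c)]
          exact mul_le_mul_of_nonneg_left (cut_dist hM0 hM1 (hs c) i) (hδ c)
      _ = (3 / 2) * ∑ k, M i k * ∑ c, δ c * |s c i - s c k| := by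
          simp only [mul_sum]
          rw [sum_comm]
          refine sum_congr rfl fun k _ => sum_congr rfl fun c _ => by ring
      _ = _ := by
          simp only [← habs]
  · intro i j θ hθ
    have e1 : (v + ∑ c, δ c * phi (gg M (s c) i)) - (v + ∑ c, δ c * phi (gg M (s c) j)) =
        ∑ c, δ c * (phi (gg M (s c) i) - phi (gg M (s c) j)) := by
      simp only [mul_sub, sum_sub_distrib]
      ring
    simp only []
    rw [e1]
    refine (abs_sum_le_sum_abs _ _).trans ?_
    rw [hT, hT, he]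
    calc ∑ c, |δ c * (phi (gg M (s c) i) - phi (gg M (s c) j))|
        ≤ ∑ c, δ c * ((3 / 2) * θ * (gg M (s c) i * (1 - gg M (s c) i) +
            gg M (s c) j * (1 - gg M (s c) j)) +
            (3 / (4 * θ) + 1) * (gg M (s c) i - gg M (s c) j) ^ 2) := sum_le_sum fun c _ => by
          rw [abs_mul, abs_of_nonneg (hδ c)]
          exact mul_le_mul_of_nonneg_left
            (phi_lip _ _ _ (gg_nonneg hM0 (hs c) i) (gg_le_one hM0 hM1 (hs c) i)
              (gg_nonneg hM0 (hs c) j) (gg_le_one hM0 hM1 (hs c) j) hθ) (hδ c)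
      _ = _ := by
          rw [← sum_add_distrib, mul_sum, mul_sum, ← sum_add_distrib]
          refine sum_congr rfl fun c _ => ?_
          ring
  · intro i j
    rw [he]
    exact sum_nonneg fun c _ => mul_nonneg (hδ c) (sq_nonneg _)

/-- The scalar optimisation over `θ`. -/
lemma scalar_opt (b P E : ℝ) (hP : 0 ≤ P) (hE : 0 ≤ E) (hb : 0 ≤ b)
    (h : ∀ θ : ℝ, 0 < θ → b ≤ (3 / 2) * θ * P + (3 / (4 * θ) + 1) * E) :
    b ^ 2 ≤ 9 * (P * E) + 2 * E ^ 2 := by
  set β := b - E with hβ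
  by_cases hβ0 : β ≤ 0
  · have h1 : b ≤ E := by linarith
    have h2 : b ^ 2 ≤ E ^ 2 := pow_le_pow_left₀ hb h1 2
    nlinarith [mul_nonneg hP hE, sq_nonneg E]
  · have hβ0' : 0 < β := not_le.mp hβ0
    have key : β ^ 2 ≤ (9 / 2) * (P * E) := by
      rcases hP.eq_or_lt with hP0 | hP0
      · exfalso
        have hθ : 0 < (3 * E + 1) / β := by positivity
        have h1 := h _ hθ
        rw [← hP0, mul_zero, zero_add] at h1
        have e1 : 3 / (4 * ((3 * E + 1) / β)) * E = (3 * E / (4 * (3 * E + 1))) * β := by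
          have : 3 * E + 1 ≠ 0 := by positivity
          field_simp
        have h2 : 3 * E / (4 * (3 * E + 1)) < 1 := by
          rw [div_lt_one (by positivity)]
          linarith
        have h3 : β ≤ 3 / (4 * ((3 * E + 1) / β)) * E := by
          rw [hβ] at *
          nlinarith
        rw [e1] at h3
        nlinarith
      · have hθ : 0 < β / (3 * P) := by positivity
        have h1 := h _ hθ
        have e1 : 3 / (4 * (β / (3 * P))) * E = 9 * P * E / (4 * β) := by
          field_simp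
          ring
        have e2 : 3 / 2 * (β / (3 * P)) * P = β / 2 := by
          field_simp
        rw [e2, add_mul, e1, one_mul] at h1
        have h2 : β / 2 ≤ 9 * P * E / (4 * β) := by
          have : b - E = β := rfl
          linarith
        rw [le_div_iff₀ (by positivity)] at h2
        nlinarith
    have hbeq : b = β + E := by rw [hβ]; ring
    rw [hbeq]
    nlinarith [sq_nonneg (β - E)]

end Crest.Agent.Lib.L1Cot
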