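import Crest.Agent.Lib.L1Cot.Cut

set_option autoImplicit false
set_option linter.unusedSectionVars false

open Finset

namespace Crest.Agent.Lib.L1Cot

variable {V : Type*} [Fintype V]

local notation "ℓ¹" => lp (fun _ : ℕ => ℝ) 1

lemma lp1_hasSum_norm (f : ℓ¹) : HasSum (fun c => |f c|) ‖f‖ := by
  have h1 : (0 : ℝ) < (1 : ENNReal).toReal := by norm_num
  have h2 := lp.hasSum_norm (p := 1) h1 f
  simpa using h2

lemma lp1_hasSum_dist (f g : ℓ¹) : HasSum (fun c => |f c - g c|) (dist f g) := by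
  rw [dist_eq_norm]
  simpa using lp1_hasSum_norm (f - g)

theorem l1_rounding {M : V → V → ℝ} (hM0 : ∀ i j, 0 ≤ M i j) (hM1 : ∀ i, ∑ j, M i j = 1)
    (x : V → ℓ¹) :
    ∃ y : V → ℓ¹,
      (∀ i, dist (x i) (y i) ≤ (3 / 2) * ∑ k, M i k * dist (x i) (x k)) ∧
      (∀ i j, dist (y i) (y j) ^ 2 ≤
        9 * ((T M (fun k l => dist (x k) (x l)) i + T M (fun k l => dist (x k) (x l)) j) *
          e M (fun k l => dist (x k) (x l)) i j) +
          2 * e M (fun k l => dist (x k) (x l)) i j ^ 2) := by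
  set d : V → V → ℝ := fun k l => dist (x k) (x l) with hd
  have hd0 : ∀ k l, 0 ≤ d k l := fun k l => dist_nonneg
  have hsum : ∀ k l, HasSum (fun c => dabs (fun k => x k c) k l) (d k l) :=
    fun k l => lp1_hasSum_dist (x k) (x l)
  choose Y hY1 hY2 hY3 using fun c => coord hM0 hM1 (fun k => x k c)
  -- the bound for the distance to `x`
  have hsum2 : ∀ i, HasSum (fun c => (3 / 2) * ∑ k, M i k * |x i c - x k c|)
      ((3 / 2) * ∑ k, M i k * d i k) := fun i =>
    (hasSum_sum fun k _ => (hsum i k).mul_left _).mul_left _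
  have hmem : ∀ i, Memℓp (fun c => Y c i) 1 := by
    intro i
    refine memℓp_gen ?_
    have hS : Summable (fun c => |x i c| + (3 / 2) * ∑ k, M i k * |x i c - x k c|) :=
      (lp1_hasSum_norm (x i)).summable.add (hsum2 i).summable
    refine hS.of_nonneg_of_le (fun c => by positivity) fun c => ?_
    have h1 := hY1 c i
    simp only [ENNReal.toReal_one, Real.rpow_one, Real.norm_eq_abs]
    have h2 : |Y c i| ≤ |Y c i - x i c| + |x i c| := by
      have := abs_add_le (Y c i - x i c) (x i c)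
      simpa using this
    linarith
  let y : V → ℓ¹ := fun i => ⟨fun c => Y c i, hmem i⟩
  have hyc : ∀ i c, (y i : ℕ → ℝ) c = Y c i := fun i c => rfl
  refine ⟨y, fun i => ?_, fun i j => ?_⟩
  · refine hasSum_le (fun c => ?_) (lp1_hasSum_dist (x i) (y i)) (hsum2 i)
    rw [hyc, abs_sub_comm]
    exact hY1 c i
  · have hP : ∀ i, 0 ≤ T M d i := T_nonneg hM0 hd0
    have hE : 0 ≤ e M d i j := (e_hasSum (M := M) hsum i j).nonneg fun c => hY3 c i j
    refine scalar_opt _ _ _ (add_nonneg (hP i) (hP j)) hE dist_nonneg fun θ hθ => ?_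
    have hR := (((T_hasSum (M := M) hsum i).add (T_hasSum (M := M) hsum j)).mul_left
      ((3 / 2) * θ)).add ((e_hasSum (M := M) hsum i j).mul_left (3 / (4 * θ) + 1))
    refine hasSum_le (fun c => ?_) (lp1_hasSum_dist (y i) (y j)) hR
    rw [hyc, hyc]
    exact hY2 c i j θ hθ

end Crest.Agent.Lib.L1Cot
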