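import Mathlib

set_option autoImplicit false
set_option linter.unusedSectionVars false

open Finset

namespace Crest.Agent.Lib.L1Cot

variable {V : Type*} [Fintype V]

/-- Jensen for a probability vector. -/
lemma sq_sum_le (p v : V → ℝ) (hp : ∀ i, 0 ≤ p i) (h1 : ∑ i, p i = 1) :
    (∑ i, p i * v i) ^ 2 ≤ ∑ i, p i * v i ^ 2 := by
  have := Finset.sum_sq_le_sum_mul_sum_of_sq_le_mul (univ : Finset V) (r := fun i => p i * v i)
    (f := p) (g := fun i => p i * v i ^ 2) (fun i _ => hp i)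
    (fun i _ => mul_nonneg (hp i) (sq_nonneg _)) (fun i _ => le_of_eq (by ring))
  rwa [h1, one_mul] at this

variable (M d : V → V → ℝ)

/-- smoothing of the distance to `z`. -/
noncomputable def G (z i : V) : ℝ := ∑ k, M i k * d k z

noncomputable def T (i : V) : ℝ := (1 / 2) * ∑ z, M i z * G M d z i

noncomputable def Bb (i j : V) : ℝ := ∑ z, M j z * G M d z i

noncomputable def e (i j : V) : ℝ := Bb M d i j - T M d i - T M d j

variable {M d}

lemma Bb_symm (hds : ∀ k l, d k l = d l k) (i j : V) :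
    Bb M d i j = ∑ z, M i z * G M d z j := by
  simp only [Bb, G, mul_sum]
  rw [sum_comm]
  refine sum_congr rfl fun k _ => sum_congr rfl fun z _ => ?_
  rw [hds k z]
  ring

lemma Bb_comm (hds : ∀ k l, d k l = d l k) (i j : V) : Bb M d i j = Bb M d j i := by
  rw [Bb_symm hds]
  rfl

lemma e_symm (hds : ∀ k l, d k l = d l k) (i j : V) : e M d i j = e M d j i := by
  simp only [e]
  rw [Bb_comm hds]
  ring

/-- The key pointwise inequality. -/
lemma T_sub_sq_add_e_sq (hds : ∀ k l, d k l = d l k)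
    (hM0 : ∀ i j, 0 ≤ M i j) (hM1 : ∀ i, ∑ j, M i j = 1) (i j : V) :
    (T M d i - T M d j) ^ 2 + e M d i j ^ 2 ≤
      (1 / 2) * ∑ z, (M i z + M j z) * (G M d z i - G M d z j) ^ 2 := by
  set α : ℝ := ∑ z, M i z * (G M d z i - G M d z j) with hα
  set β : ℝ := ∑ z, M j z * (G M d z i - G M d z j) with hβ
  have h2i : ∑ z, M i z * G M d z i = 2 * T M d i := by
    simp only [T]; ring
  have h2j : ∑ z, M j z * G M d z j = 2 * T M d j := by
    simp only [T]; ring
  have hαe : α = 2 * T M d i - Bb M d i j := by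
    rw [hα, Bb_symm hds, ← h2i, ← sum_sub_distrib]
    exact sum_congr rfl fun z _ => by ring
  have hβe : β = Bb M d i j - 2 * T M d j := by
    rw [hβ, ← h2j]
    simp only [Bb]
    rw [← sum_sub_distrib]
    exact sum_congr rfl fun z _ => by ring
  have h1 := sq_sum_le (M i) (fun z => G M d z i - G M d z j) (hM0 i) (hM1 i)
  have h2 := sq_sum_le (M j) (fun z => G M d z i - G M d z j) (hM0 j) (hM1 j)
  have h3 : ∑ z, (M i z + M j z) * (G M d z i - G M d z j) ^ 2 =
      ∑ z, M i z * (G M d z i - G M d z j) ^ 2 + ∑ z, M j z * (G M d z i - G M d z j) ^ 2 := by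
    rw [← sum_add_distrib]
    exact sum_congr rfl fun z _ => by ring
  rw [h3]
  have h4 : (T M d i - T M d j) ^ 2 + e M d i j ^ 2 = (α ^ 2 + β ^ 2) / 2 := by
    rw [hαe, hβe]
    simp only [e]
    ring
  rw [h4]
  change α ^ 2 ≤ _ at h1
  change β ^ 2 ≤ _ at h2
  linarith

section chain

variable {w : V → ℝ} {A A1 At : V → V → ℝ} {t : ℝ}

lemma stat (hrev : ∀ i j, w i * A i j = w j * A j i) (hA1 : ∀ i, ∑ j, A i j = 1) (j : V) :
    ∑ i, w i * A i j = w j := by
  calc ∑ i, w i * A i j = ∑ i, w j * A j i := sum_congr rfl fun i _ => hrev i j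
    _ = w j := by rw [← mul_sum, hA1, mul_one]

/-- Dirichlet form identity. -/
lemma dirichlet (hrev : ∀ i j, w i * A i j = w j * A j i) (hA1 : ∀ i, ∑ j, A i j = 1) (f : V → ℝ) :
    ∑ i, w i * f i * (f i - ∑ j, A i j * f j) = (1 / 2) * ∑ i, ∑ j, w i * A i j * (f i - f j) ^ 2 := by
  have h1 : ∑ i, ∑ j, w i * A i j * f j ^ 2 = ∑ j, w j * f j ^ 2 := by
    rw [sum_comm]
    refine sum_congr rfl fun j _ => ?_
    rw [← sum_mul, stat hrev hA1]
  have h2 : ∑ i, ∑ j, w i * A i j * f i ^ 2 = ∑ i, w i * f i ^ 2 := by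
    refine sum_congr rfl fun i _ => ?_
    calc ∑ j, w i * A i j * f i ^ 2 = w i * f i ^ 2 * ∑ j, A i j := by
          rw [mul_sum]
          exact sum_congr rfl fun j _ => by ring
      _ = _ := by rw [hA1, mul_one]
  have h3 : ∑ i, ∑ j, w i * A i j * (f i - f j) ^ 2 =
      ∑ i, ∑ j, w i * A i j * f i ^ 2 - 2 * ∑ i, ∑ j, w i * A i j * (f i * f j) +
        ∑ i, ∑ j, w i * A i j * f j ^ 2 := by
    rw [mul_sum, ← sum_sub_distrib, ← sum_add_distrib]
    refine sum_congr rfl fun i _ => ?_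
    rw [mul_sum, ← sum_sub_distrib, ← sum_add_distrib]
    exact sum_congr rfl fun j _ => by ring
  rw [h3, h1, h2]
  have h4 : ∑ i, w i * f i * (f i - ∑ j, A i j * f j) =
      ∑ i, w i * f i ^ 2 - ∑ i, ∑ j, w i * A i j * (f i * f j) := by
    rw [← sum_sub_distrib]
    refine sum_congr rfl fun i _ => ?_
    rw [mul_sub, mul_sum]
    congr 1
    · ring
    · exact sum_congr rfl fun j _ => by ring
  rw [h4]
  ring

/-- Symmetrisation. -/
lemma sum_symm (hrev : ∀ i j, w i * A i j = w j * A j i) (f : V → ℝ) (F : V → V → ℝ)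
    (hF : ∀ i j, F i j = F j i) :
    ∑ i, ∑ j, w i * A i j * (f j * F i j) = ∑ i, ∑ j, w i * A i j * (f i * F i j) := by
  rw [sum_comm]
  refine sum_congr rfl fun i _ => sum_congr rfl fun j _ => ?_
  rw [hrev j i, hF j i]

/-- the difference `Af_z - A1 f_z`. -/
noncomputable def L (A A1 : V → V → ℝ) (d : V → V → ℝ) (z i : V) : ℝ := ∑ y, (A i y - A1 i y) * d y z

noncomputable def C (A At : V → V → ℝ) (d : V → V → ℝ) (i : V) : ℝ := ∑ k, A i k * ∑ l, At k l * d k l

noncomputable def R (M A A1 : V → V → ℝ) (d : V → V → ℝ) (i : V) : ℝ := ∑ z, (A i z - A1 i z) * G M d z i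

lemma abs_L_le (hA0 : ∀ i j, 0 ≤ A i j) (hAt0 : ∀ i j, 0 ≤ At i j) (hAt1 : ∀ i, ∑ j, At i j = 1)
    (hA1eq : ∀ i l, A1 i l = ∑ k, A i k * At k l)
    (hds : ∀ k l, d k l = d l k) (htri : ∀ k l m, d k m ≤ d k l + d l m) (z i : V) :
    |L A A1 d z i| ≤ C A At d i := by
  have h1 : L A A1 d z i = ∑ k, A i k * ∑ l, At k l * (d k z - d l z) := by
    have e1 : ∑ y, A1 i y * d y z = ∑ k, A i k * ∑ l, At k l * d l z := by
      simp only [hA1eq, sum_mul, mul_sum]
      rw [sum_comm]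
      exact sum_congr rfl fun k _ => sum_congr rfl fun l _ => by ring
    have e2 : ∀ k, ∑ l, At k l * (d k z - d l z) = d k z - ∑ l, At k l * d l z := by
      intro k
      simp only [mul_sub, sum_sub_distrib]
      rw [← sum_mul, hAt1, one_mul]
    have e3 : ∑ k, A i k * ∑ l, At k l * (d k z - d l z) =
        ∑ k, A i k * d k z - ∑ k, A i k * ∑ l, At k l * d l z := by
      rw [← sum_sub_distrib]
      refine sum_congr rfl fun k _ => ?_
      rw [e2 k]
      ring
    rw [L, e3, ← e1, ← sum_sub_distrib]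
    exact sum_congr rfl fun k _ => by ring
  rw [h1]
  refine (abs_sum_le_sum_abs _ _).trans (sum_le_sum fun k _ => ?_)
  rw [abs_mul, abs_of_nonneg (hA0 i k)]
  refine mul_le_mul_of_nonneg_left ?_ (hA0 i k)
  refine (abs_sum_le_sum_abs _ _).trans (sum_le_sum fun l _ => ?_)
  rw [abs_mul, abs_of_nonneg (hAt0 k l)]
  refine mul_le_mul_of_nonneg_left ?_ (hAt0 k l)
  rw [abs_le]
  constructor
  · have := htri l k z
    have := hds l k
    linarith
  · have := htri k l z
    linarith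

lemma R_eq (hds : ∀ k l, d k l = d l k) (i : V) :
    R M A A1 d i = ∑ k, M i k * L A A1 d k i := by
  simp only [R, G, L, mul_sum]
  rw [sum_comm]
  refine sum_congr rfl fun k _ => sum_congr rfl fun y _ => ?_
  rw [hds y k]
  ring

lemma abs_R_le (hM0 : ∀ i j, 0 ≤ M i j) (hM1 : ∀ i, ∑ j, M i j = 1)
    (hA0 : ∀ i j, 0 ≤ A i j) (hAt0 : ∀ i j, 0 ≤ At i j) (hAt1 : ∀ i, ∑ j, At i j = 1)
    (hA1eq : ∀ i l, A1 i l = ∑ k, A i k * At k l)
    (hds : ∀ k l, d k l = d l k) (htri : ∀ k l m, d k m ≤ d k l + d l m) (i : V) :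
    |R M A A1 d i| ≤ C A At d i := by
  rw [R_eq hds]
  calc |∑ k, M i k * L A A1 d k i| ≤ ∑ k, |M i k * L A A1 d k i| := abs_sum_le_sum_abs _ _
    _ ≤ ∑ k, M i k * C A At d i := sum_le_sum fun k _ => by
        rw [abs_mul, abs_of_nonneg (hM0 i k)]
        exact mul_le_mul_of_nonneg_left (abs_L_le hA0 hAt0 hAt1 hA1eq hds htri k i) (hM0 i k)
    _ = C A At d i := by rw [← sum_mul, hM1, one_mul]

/-- Pointwise identity for the energy density. -/
lemma sum_A_e (hA1r : ∀ i, ∑ j, A i j = 1)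
    (hMeq : ∀ i j, M i j - ∑ k, A i k * M k j = (1 / t) * (A i j - A1 i j)) (i : V) :
    ∑ j, A i j * e M d i j = T M d i - ∑ j, A i j * T M d j - (1 / t) * R M A A1 d i := by
  have h1 : ∑ j, A i j * Bb M d i j = 2 * T M d i - (1 / t) * R M A A1 d i := by
    have e1 : ∑ j, A i j * Bb M d i j = ∑ z, (∑ k, A i k * M k z) * G M d z i := by
      simp only [Bb, mul_sum, sum_mul]
      rw [sum_comm]
      exact sum_congr rfl fun z _ => sum_congr rfl fun j _ => by ring
    have e2 : ∀ z, ∑ k, A i k * M k z = M i z - (1 / t) * (A i z - A1 i z) := fun z => by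
      rw [← hMeq i z]; ring
    rw [e1]
    simp only [e2, sub_mul, sum_sub_distrib]
    have e3 : 2 * T M d i = ∑ z, M i z * G M d z i := by
      simp only [T]; ring
    rw [e3, R, mul_sum]
    congr 1
    exact sum_congr rfl fun z _ => by ring
  simp only [e, mul_sub, sum_sub_distrib]
  rw [h1]
  rw [← sum_mul, hA1r, one_mul]
  ring

/-- Local energy identity at a point `z`. -/
lemma loc_identity (htne : t ≠ 0) (hA1r : ∀ i, ∑ j, A i j = 1)
    (hMeq : ∀ i j, M i j - ∑ k, A i k * M k j = (1 / t) * (A i j - A1 i j))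
    (hcomm : ∀ i j, ∑ k, M i k * A k j = ∑ k, A i k * M k j) (z : V) :
    t * ∑ i, M z i * ∑ j, A i j * (G M d z i - G M d z j) ^ 2 =
      2 * ∑ i, M z i * G M d z i * L A A1 d z i - ∑ j, (A z j - A1 z j) * G M d z j ^ 2 := by
  set g : V → ℝ := G M d z with hg
  have e2 : ∀ i k, ∑ j, A i j * M j k = M i k - (1 / t) * (A i k - A1 i k) := fun i k => by
    rw [← hMeq i k]; ring
  have hAG : ∀ i, ∑ j, A i j * g j = g i - (1 / t) * L A A1 d z i := by
    intro i
    have e1 : ∑ j, A i j * g j = ∑ k, (∑ j, A i j * M j k) * d k z := by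
      simp only [hg, G, mul_sum, sum_mul]
      rw [sum_comm]
      exact sum_congr rfl fun k _ => sum_congr rfl fun j _ => by ring
    rw [e1]
    simp only [e2, sub_mul, sum_sub_distrib]
    simp only [hg, G, L, mul_sum]
    congr 1
    exact sum_congr rfl fun k _ => by ring
  have hpt : ∀ i, ∑ j, A i j * (g i - g j) ^ 2 =
      -g i ^ 2 + (2 / t) * (g i * L A A1 d z i) + ∑ j, A i j * g j ^ 2 := by
    intro i
    have e3 : ∑ j, A i j * (g i - g j) ^ 2 =
        g i ^ 2 * ∑ j, A i j - 2 * g i * ∑ j, A i j * g j + ∑ j, A i j * g j ^ 2 := by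
      simp only [mul_sum]
      rw [← sum_sub_distrib, ← sum_add_distrib]
      exact sum_congr rfl fun j _ => by ring
    rw [e3, hA1r, hAG]
    ring
  have e4 : ∑ i, M z i * ∑ j, A i j * g j ^ 2 = ∑ j, (M z j - (1 / t) * (A z j - A1 z j)) * g j ^ 2 := by
    simp only [mul_sum]
    rw [sum_comm]
    refine sum_congr rfl fun j _ => ?_
    rw [← e2, ← hcomm, sum_mul]
    exact sum_congr rfl fun i _ => by ring
  have e5 : ∑ i, M z i * ∑ j, A i j * (g i - g j) ^ 2 =
      -∑ i, M z i * g i ^ 2 + (2 / t) * ∑ i, M z i * g i * L A A1 d z i +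
        ∑ j, (M z j - (1 / t) * (A z j - A1 z j)) * g j ^ 2 := by
    rw [← e4, mul_sum, ← sum_neg_distrib, ← sum_add_distrib, ← sum_add_distrib]
    refine sum_congr rfl fun i _ => ?_
    rw [hpt]
    ring
  have e6 : ∑ j, (M z j - (1 / t) * (A z j - A1 z j)) * g j ^ 2 =
      ∑ j, M z j * g j ^ 2 - (1 / t) * ∑ j, (A z j - A1 z j) * g j ^ 2 := by
    rw [mul_sum, ← sum_sub_distrib]
    exact sum_congr rfl fun j _ => by ring
  rw [e5, e6]
  field_simp
  ring

lemma G_nonneg (hM0 : ∀ i j, 0 ≤ M i j) (hd0 : ∀ k l, 0 ≤ d k l) (z i : V) : 0 ≤ G M d z i :=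
  sum_nonneg fun k _ => mul_nonneg (hM0 i k) (hd0 k z)

lemma T_nonneg (hM0 : ∀ i j, 0 ≤ M i j) (hd0 : ∀ k l, 0 ≤ d k l) (i : V) : 0 ≤ T M d i :=
  mul_nonneg (by norm_num) (sum_nonneg fun z _ => mul_nonneg (hM0 i z) (G_nonneg hM0 hd0 z i))

/-- Bound on the global energy. -/
lemma H_bound (ht : 0 < t) (hw : ∀ i, 0 ≤ w i) (hM0 : ∀ i j, 0 ≤ M i j) (hMrev : ∀ i j, w i * M i j = w j * M j i)
    (hA0 : ∀ i j, 0 ≤ A i j) (hA1r : ∀ i, ∑ j, A i j = 1)
    (hAt0 : ∀ i j, 0 ≤ At i j) (hAt1 : ∀ i, ∑ j, At i j = 1)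
    (hA1eq : ∀ i l, A1 i l = ∑ k, A i k * At k l)
    (hMeq : ∀ i j, M i j - ∑ k, A i k * M k j = (1 / t) * (A i j - A1 i j))
    (hcomm : ∀ i j, ∑ k, M i k * A k j = ∑ k, A i k * M k j)
    (hd0 : ∀ k l, 0 ≤ d k l) (hds : ∀ k l, d k l = d l k) (htri : ∀ k l m, d k m ≤ d k l + d l m) :
    t * ∑ z, w z * ∑ i, M z i * ∑ j, A i j * (G M d z i - G M d z j) ^ 2 ≤
      4 * ∑ i, w i * T M d i * C A At d i + ∑ z, w z * ∑ j, A1 z j * G M d z j ^ 2 := by
  have hloc : ∀ z, t * ∑ i, M z i * ∑ j, A i j * (G M d z i - G M d z j) ^ 2 ≤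
      2 * ∑ i, M z i * G M d z i * C A At d i + ∑ j, A1 z j * G M d z j ^ 2 := by
    intro z
    rw [loc_identity (A1 := A1) ht.ne' hA1r hMeq hcomm z]
    have h1 : ∑ i, M z i * G M d z i * L A A1 d z i ≤ ∑ i, M z i * G M d z i * C A At d i :=
      sum_le_sum fun i _ => mul_le_mul_of_nonneg_left
        ((le_abs_self _).trans (abs_L_le hA0 hAt0 hAt1 hA1eq hds htri z i))
        (mul_nonneg (hM0 z i) (G_nonneg hM0 hd0 z i))
    have h2 : -∑ j, (A z j - A1 z j) * G M d z j ^ 2 ≤ ∑ j, A1 z j * G M d z j ^ 2 := by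
      rw [← sum_neg_distrib]
      refine sum_le_sum fun j _ => ?_
      have := mul_nonneg (hA0 z j) (sq_nonneg (G M d z j))
      nlinarith
    linarith
  have hswap : ∑ z, w z * (2 * ∑ i, M z i * G M d z i * C A At d i) =
      4 * ∑ i, w i * T M d i * C A At d i := by
    have h1 : ∀ i, ∑ z, w i * M i z * G M d z i = 2 * (w i * T M d i) := by
      intro i
      simp only [T]
      rw [mul_left_comm, ← mul_assoc 2, show (2 : ℝ) * (1 / 2) = 1 by norm_num, one_mul, mul_sum]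
      exact sum_congr rfl fun z _ => by ring
    calc ∑ z, w z * (2 * ∑ i, M z i * G M d z i * C A At d i)
        = 2 * ∑ i, ∑ z, w z * M z i * G M d z i * C A At d i := by
          rw [sum_comm, mul_sum]
          refine sum_congr rfl fun z _ => ?_
          rw [mul_left_comm, mul_sum]
          congr 1
          exact sum_congr rfl fun i _ => by ring
      _ = 2 * ∑ i, (∑ z, w i * M i z * G M d z i) * C A At d i := by
          congr 1
          refine sum_congr rfl fun i _ => ?_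
          rw [sum_mul]
          exact sum_congr rfl fun z _ => by rw [hMrev z i]
      _ = _ := by
          simp only [h1, mul_sum]
          refine sum_congr rfl fun i _ => by ring
  calc t * ∑ z, w z * ∑ i, M z i * ∑ j, A i j * (G M d z i - G M d z j) ^ 2
      = ∑ z, w z * (t * ∑ i, M z i * ∑ j, A i j * (G M d z i - G M d z j) ^ 2) := by
        rw [mul_sum]
        exact sum_congr rfl fun z _ => by ring
    _ ≤ ∑ z, w z * (2 * ∑ i, M z i * G M d z i * C A At d i + ∑ j, A1 z j * G M d z j ^ 2) :=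
        sum_le_sum fun z _ => mul_le_mul_of_nonneg_left (hloc z) (hw z)
    _ = _ := by
        simp only [mul_add, sum_add_distrib]
        rw [hswap]

/-- The symmetrised energy. -/
lemma sum_J (hrev : ∀ i j, w i * A i j = w j * A j i) (hMrev : ∀ i j, w i * M i j = w j * M j i) :
    ∑ i, ∑ j, w i * A i j * ((1 / 2) * ∑ z, (M i z + M j z) * (G M d z i - G M d z j) ^ 2) =
      ∑ z, w z * ∑ i, M z i * ∑ j, A i j * (G M d z i - G M d z j) ^ 2 := by
  have h1 : ∑ i, ∑ j, w i * A i j * ∑ z, M j z * (G M d z i - G M d z j) ^ 2 =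
      ∑ i, ∑ j, w i * A i j * ∑ z, M i z * (G M d z i - G M d z j) ^ 2 := by
    rw [sum_comm]
    refine sum_congr rfl fun i _ => sum_congr rfl fun j _ => ?_
    rw [hrev j i]
    congr 1
    refine sum_congr rfl fun z _ => ?_
    rw [← neg_sub (G M d z j), neg_sq]
  have h2 : ∑ i, ∑ j, w i * A i j * ((1 / 2) * ∑ z, (M i z + M j z) * (G M d z i - G M d z j) ^ 2) =
      (1 / 2) * (∑ i, ∑ j, w i * A i j * ∑ z, M i z * (G M d z i - G M d z j) ^ 2 +
        ∑ i, ∑ j, w i * A i j * ∑ z, M j z * (G M d z i - G M d z j) ^ 2) := by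
    rw [← sum_add_distrib, mul_sum]
    refine sum_congr rfl fun i _ => ?_
    rw [← sum_add_distrib, mul_sum]
    refine sum_congr rfl fun j _ => ?_
    rw [← mul_add, ← sum_add_distrib, mul_left_comm]
    congr 2
    exact sum_congr rfl fun z _ => by ring
  rw [h2, h1]
  have h3 : ∑ i, ∑ j, w i * A i j * ∑ z, M i z * (G M d z i - G M d z j) ^ 2 =
      ∑ z, w z * ∑ i, M z i * ∑ j, A i j * (G M d z i - G M d z j) ^ 2 := by
    simp only [mul_sum]
    calc ∑ i, ∑ j, ∑ z, w i * A i j * (M i z * (G M d z i - G M d z j) ^ 2)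
        = ∑ i, ∑ z, ∑ j, w i * A i j * (M i z * (G M d z i - G M d z j) ^ 2) :=
          sum_congr rfl fun i _ => sum_comm
      _ = ∑ z, ∑ i, ∑ j, w i * A i j * (M i z * (G M d z i - G M d z j) ^ 2) := sum_comm
      _ = _ := by
          refine sum_congr rfl fun z _ => sum_congr rfl fun i _ => sum_congr rfl fun j _ => ?_
          have := hMrev i z
          calc w i * A i j * (M i z * (G M d z i - G M d z j) ^ 2)
              = (w i * M i z) * (A i j * (G M d z i - G M d z j) ^ 2) := by ring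
            _ = (w z * M z i) * (A i j * (G M d z i - G M d z j) ^ 2) := by rw [this]
            _ = _ := by ring
  rw [h3]
  ring

lemma swap_w (w : V → ℝ) (B : V → V → ℝ) (F : V → ℝ) :
    ∑ i, w i * ∑ k, B i k * F k = ∑ k, (∑ i, w i * B i k) * F k := by
  simp only [mul_sum, sum_mul]
  rw [sum_comm]
  exact sum_congr rfl fun k _ => sum_congr rfl fun i _ => by ring

/-- `T i ≤ D i`. -/
lemma T_le_D (hM0 : ∀ i j, 0 ≤ M i j) (hM1 : ∀ i, ∑ j, M i j = 1)
    (hds : ∀ k l, d k l = d l k) (htri : ∀ k l m, d k m ≤ d k l + d l m) (i : V) :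
    T M d i ≤ ∑ k, M i k * d i k := by
  have h1 : ∑ z, M i z * G M d z i ≤ ∑ z, M i z * ((∑ k, M i k * d i k) + d i z) := by
    refine sum_le_sum fun z _ => mul_le_mul_of_nonneg_left ?_ (hM0 i z)
    have : ∑ k, M i k * d k z ≤ ∑ k, M i k * (d i k + d i z) :=
      sum_le_sum fun k _ => mul_le_mul_of_nonneg_left (by
        have := htri k i z
        have := hds k i
        linarith) (hM0 i k)
    have h2 : ∑ k, M i k * (d i k + d i z) = (∑ k, M i k * d i k) + d i z := by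
      simp only [mul_add, sum_add_distrib]
      rw [← sum_mul, hM1, one_mul]
    rw [G]
    linarith
  have h3 : ∑ z, M i z * ((∑ k, M i k * d i k) + d i z) = 2 * ∑ k, M i k * d i k := by
    simp only [mul_add, sum_add_distrib]
    rw [← sum_mul, hM1, one_mul]
    ring
  rw [T]
  linarith

/-- second moment of `T`. -/
lemma sum_T_sq (hw : ∀ i, 0 ≤ w i) (hM0 : ∀ i j, 0 ≤ M i j) (hM1 : ∀ i, ∑ j, M i j = 1)
    (hd0 : ∀ k l, 0 ≤ d k l)
    (hds : ∀ k l, d k l = d l k) (htri : ∀ k l m, d k m ≤ d k l + d l m) :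
    ∑ i, w i * T M d i ^ 2 ≤ ∑ i, ∑ j, w i * M i j * d i j ^ 2 := by
  refine sum_le_sum fun i _ => ?_
  have h1 := T_le_D hM0 hM1 hds htri i
  have h0 := T_nonneg hM0 hd0 i
  have h2 := sq_sum_le (M i) (fun k => d i k) (hM0 i) (hM1 i)
  have h3 : T M d i ^ 2 ≤ ∑ k, M i k * d i k ^ 2 := by
    refine le_trans ?_ h2
    exact pow_le_pow_left₀ h0 h1 2
  calc w i * T M d i ^ 2 ≤ w i * ∑ k, M i k * d i k ^ 2 := mul_le_mul_of_nonneg_left h3 (hw i)
    _ = _ := by
      rw [mul_sum]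
      exact sum_congr rfl fun k _ => by ring

/-- second moment of `C`. -/
lemma sum_C_sq (hw : ∀ i, 0 ≤ w i) (hrev : ∀ i j, w i * A i j = w j * A j i)
    (hA0 : ∀ i j, 0 ≤ A i j) (hA1r : ∀ i, ∑ j, A i j = 1)
    (hAt0 : ∀ i j, 0 ≤ At i j) (hAt1 : ∀ i, ∑ j, At i j = 1) :
    ∑ i, w i * C A At d i ^ 2 ≤ ∑ i, ∑ j, w i * At i j * d i j ^ 2 := by
  have h1 : ∀ i, C A At d i ^ 2 ≤ ∑ k, A i k * ∑ l, At k l * d k l ^ 2 := by
    intro i
    refine (sq_sum_le (A i) (fun k => ∑ l, At k l * d k l) (hA0 i) (hA1r i)).trans ?_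
    refine sum_le_sum fun k _ => mul_le_mul_of_nonneg_left ?_ (hA0 i k)
    exact sq_sum_le (At k) (fun l => d k l) (hAt0 k) (hAt1 k)
  calc ∑ i, w i * C A At d i ^ 2 ≤ ∑ i, w i * ∑ k, A i k * ∑ l, At k l * d k l ^ 2 :=
        sum_le_sum fun i _ => mul_le_mul_of_nonneg_left (h1 i) (hw i)
    _ = ∑ k, (∑ i, w i * A i k) * ∑ l, At k l * d k l ^ 2 :=
        swap_w w A (fun k => ∑ l, At k l * d k l ^ 2)
    _ = _ := by
        simp only [stat hrev hA1r, mul_sum]
        refine sum_congr rfl fun k _ => sum_congr rfl fun l _ => by ring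

/-- The boundary term. -/
lemma sum_G_sq (hw : ∀ i, 0 ≤ w i) (hM0 : ∀ i j, 0 ≤ M i j) (hM1 : ∀ i, ∑ j, M i j = 1)
    (hA10 : ∀ i j, 0 ≤ A1 i j) (hA1stat : ∀ j, ∑ i, w i * A1 i j = w j)
    (hd0 : ∀ k l, 0 ≤ d k l)
    (hds : ∀ k l, d k l = d l k) (htri : ∀ k l m, d k m ≤ d k l + d l m) :
    ∑ z, w z * ∑ j, A1 z j * G M d z j ^ 2 ≤
      2 * ∑ i, ∑ j, w i * M i j * d i j ^ 2 + 2 * ∑ i, ∑ j, w i * A1 i j * d i j ^ 2 := by
  have h1 : ∀ z j, G M d z j ^ 2 ≤ 2 * ∑ k, M j k * d j k ^ 2 + 2 * d z j ^ 2 := by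
    intro z j
    refine (sq_sum_le (M j) (fun k => d k z) (hM0 j) (hM1 j)).trans ?_
    have : ∑ k, M j k * d k z ^ 2 ≤ ∑ k, M j k * (2 * d j k ^ 2 + 2 * d z j ^ 2) := by
      refine sum_le_sum fun k _ => mul_le_mul_of_nonneg_left ?_ (hM0 j k)
      have h2 := htri k j z
      have h3 := hds k j
      have h4 := hds j z
      have h5 := hd0 k z
      rw [h3, h4] at h2
      nlinarith [sq_nonneg (d j k - d z j), sq_nonneg (d j k + d z j - d k z)]
    refine this.trans (le_of_eq ?_)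
    have : ∀ k, M j k * (2 * d j k ^ 2 + 2 * d z j ^ 2) = 2 * (M j k * d j k ^ 2) + M j k * (2 * d z j ^ 2) :=
      fun k => by ring
    simp only [this, sum_add_distrib]
    rw [← sum_mul, hM1, one_mul, mul_sum]
  calc ∑ z, w z * ∑ j, A1 z j * G M d z j ^ 2
      ≤ ∑ z, w z * ∑ j, A1 z j * (2 * ∑ k, M j k * d j k ^ 2 + 2 * d z j ^ 2) :=
        sum_le_sum fun z _ => mul_le_mul_of_nonneg_left
          (sum_le_sum fun j _ => mul_le_mul_of_nonneg_left (h1 z j) (hA10 z j)) (hw z)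
    _ = ∑ j, (∑ z, w z * A1 z j) * (2 * ∑ k, M j k * d j k ^ 2) +
          2 * ∑ z, ∑ j, w z * A1 z j * d z j ^ 2 := by
        simp only [mul_add, sum_add_distrib]
        congr 1
        · exact swap_w w A1 (fun j => 2 * ∑ k, M j k * d j k ^ 2)
        · simp only [mul_sum]
          refine sum_congr rfl fun j _ => sum_congr rfl fun z _ => by ring
    _ = _ := by
        simp only [hA1stat]
        congr 1
        simp only [mul_sum]
        refine sum_congr rfl fun j _ => sum_congr rfl fun z _ => by ring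

/-- The main energy inequality, for a general metric `d`. -/
lemma Q_bound (ht : 0 < t) (hw : ∀ i, 0 ≤ w i) (hrev : ∀ i j, w i * A i j = w j * A j i)
    (hM0 : ∀ i j, 0 ≤ M i j) (hM1 : ∀ i, ∑ j, M i j = 1) (hMrev : ∀ i j, w i * M i j = w j * M j i)
    (hA0 : ∀ i j, 0 ≤ A i j) (hA1r : ∀ i, ∑ j, A i j = 1)
    (hAt0 : ∀ i j, 0 ≤ At i j) (hAt1 : ∀ i, ∑ j, At i j = 1)
    (hA10 : ∀ i j, 0 ≤ A1 i j) (hA1stat : ∀ j, ∑ i, w i * A1 i j = w j)
    (hA1eq : ∀ i l, A1 i l = ∑ k, A i k * At k l)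
    (hMeq : ∀ i j, M i j - ∑ k, A i k * M k j = (1 / t) * (A i j - A1 i j))
    (hcomm : ∀ i j, ∑ k, M i k * A k j = ∑ k, A i k * M k j)
    (hd0 : ∀ k l, 0 ≤ d k l) (hds : ∀ k l, d k l = d l k) (htri : ∀ k l m, d k m ≤ d k l + d l m) :
    t * ∑ i, ∑ j, w i * A i j * (9 * ((T M d i + T M d j) * e M d i j) + 2 * e M d i j ^ 2) ≤
      (27 / 2) * ∑ i, ∑ j, w i * At i j * d i j ^ 2 + 72 * ∑ i, ∑ j, w i * M i j * d i j ^ 2 +
        18 * ∑ i, ∑ j, w i * A1 i j * d i j ^ 2 := by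
  set Vb := ∑ i, ∑ j, w i * M i j * d i j ^ 2 with hVb
  set Vt := ∑ i, ∑ j, w i * At i j * d i j ^ 2 with hVt
  set V1 := ∑ i, ∑ j, w i * A1 i j * d i j ^ 2 with hV1
  set TT := T M d with hTT
  -- the product term
  have hS1 : ∑ i, ∑ j, w i * A i j * ((TT i + TT j) * e M d i j) =
      ∑ i, ∑ j, w i * A i j * (TT i - TT j) ^ 2 - (2 / t) * ∑ i, w i * TT i * R M A A1 d i := by
    have h1 : ∑ i, ∑ j, w i * A i j * ((TT i + TT j) * e M d i j) =
        2 * ∑ i, ∑ j, w i * A i j * (TT i * e M d i j) := by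
      have := sum_symm hrev TT (e M d) (e_symm hds)
      rw [two_mul]
      nth_rewrite 2 [← this]
      rw [← sum_add_distrib]
      refine sum_congr rfl fun i _ => ?_
      rw [← sum_add_distrib]
      exact sum_congr rfl fun j _ => by ring
    have h2 : ∑ i, ∑ j, w i * A i j * (TT i * e M d i j) =
        ∑ i, w i * TT i * (TT i - ∑ j, A i j * TT j) - (1 / t) * ∑ i, w i * TT i * R M A A1 d i := by
      rw [mul_sum, ← sum_sub_distrib]
      refine sum_congr rfl fun i _ => ?_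
      have h3 := sum_A_e (d := d) (M := M) hA1r hMeq i
      have h4 : ∑ j, w i * A i j * (TT i * e M d i j) = w i * TT i * ∑ j, A i j * e M d i j := by
        rw [mul_sum]
        exact sum_congr rfl fun j _ => by ring
      rw [h4, h3]
      ring
    rw [h1, h2, dirichlet hrev hA1r TT]
    ring
  -- the pointwise estimate
  have hptw : ∑ i, ∑ j, w i * A i j * ((TT i - TT j) ^ 2 + e M d i j ^ 2) ≤
      ∑ z, w z * ∑ i, M z i * ∑ j, A i j * (G M d z i - G M d z j) ^ 2 := by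
    rw [← sum_J hrev hMrev]
    refine sum_le_sum fun i _ => sum_le_sum fun j _ => ?_
    exact mul_le_mul_of_nonneg_left (T_sub_sq_add_e_sq hds hM0 hM1 i j)
      (mul_nonneg (hw i) (hA0 i j))
  have hH := H_bound (d := d) ht hw hM0 hMrev hA0 hA1r hAt0 hAt1 hA1eq hMeq hcomm hd0 hds htri
  have hG := sum_G_sq (d := d) hw hM0 hM1 hA10 hA1stat hd0 hds htri
  have hT2 := sum_T_sq (d := d) hw hM0 hM1 hd0 hds htri
  have hC2 := sum_C_sq (d := d) hw hrev hA0 hA1r hAt0 hAt1
  have hTR : -∑ i, w i * TT i * R M A A1 d i ≤ ∑ i, w i * TT i * C A At d i := by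
    rw [← sum_neg_distrib]
    refine sum_le_sum fun i _ => ?_
    have h1 := abs_R_le (d := d) hM0 hM1 hA0 hAt0 hAt1 hA1eq hds htri i
    have h2 : 0 ≤ w i * TT i := mul_nonneg (hw i) (T_nonneg hM0 hd0 i)
    have h3 := (neg_abs_le (R M A A1 d i))
    nlinarith
  have hTC : ∑ i, w i * TT i * C A At d i ≤
      (1 / 4) * ∑ i, w i * C A At d i ^ 2 + ∑ i, w i * TT i ^ 2 := by
    rw [mul_sum, ← sum_add_distrib]
    refine sum_le_sum fun i _ => ?_
    nlinarith [hw i, mul_nonneg (hw i) (sq_nonneg (C A At d i / 2 - TT i))]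
  -- combining
  have hsplit : ∑ i, ∑ j, w i * A i j * (9 * ((TT i + TT j) * e M d i j) + 2 * e M d i j ^ 2) =
      9 * ∑ i, ∑ j, w i * A i j * ((TT i + TT j) * e M d i j) +
        2 * ∑ i, ∑ j, w i * A i j * e M d i j ^ 2 := by
    rw [mul_sum, mul_sum, ← sum_add_distrib]
    refine sum_congr rfl fun i _ => ?_
    rw [mul_sum, mul_sum, ← sum_add_distrib]
    exact sum_congr rfl fun j _ => by ring
  have hsplit2 : ∑ i, ∑ j, w i * A i j * ((TT i - TT j) ^ 2 + e M d i j ^ 2) =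
      ∑ i, ∑ j, w i * A i j * (TT i - TT j) ^ 2 + ∑ i, ∑ j, w i * A i j * e M d i j ^ 2 := by
    rw [← sum_add_distrib]
    refine sum_congr rfl fun i _ => ?_
    rw [← sum_add_distrib]
    exact sum_congr rfl fun j _ => by ring
  rw [hsplit, hS1]
  rw [hsplit2] at hptw
  set X := ∑ i, ∑ j, w i * A i j * (TT i - TT j) ^ 2
  set Y := ∑ i, ∑ j, w i * A i j * e M d i j ^ 2
  set H := ∑ z, w z * ∑ i, M z i * ∑ j, A i j * (G M d z i - G M d z j) ^ 2
  set TR := ∑ i, w i * TT i * R M A A1 d i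
  set TC := ∑ i, w i * TT i * C A At d i
  have hY : 0 ≤ Y := sum_nonneg fun i _ => sum_nonneg fun j _ =>
    mul_nonneg (mul_nonneg (hw i) (hA0 i j)) (sq_nonneg _)
  have e1 : t * (9 * (X - 2 / t * TR) + 2 * Y) = 9 * (t * X) - 18 * TR + 2 * (t * Y) := by
    field_simp
    ring
  rw [e1]
  have h5 : t * (X + Y) ≤ t * H := mul_le_mul_of_nonneg_left hptw ht.le
  have h6 : 0 ≤ t * Y := mul_nonneg ht.le hY
  nlinarith

end chain

end Crest.Agent.Lib.L1Cot
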