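import Crest.Agent.Lib.L1Cot.Markov

set_option autoImplicit false
set_option linter.unusedSectionVars false

open Finset

namespace Crest.Agent.Lib.L1Cot

variable {V : Type*} [Fintype V] [DecidableEq V]

section powers

variable {w : V → ℝ} {A : Matrix V V ℝ}

lemma pow_entry_nonneg (hA0 : ∀ i j, 0 ≤ A i j) (s : ℕ) (i j : V) : 0 ≤ (A ^ s) i j := by
  induction s generalizing i j with
  | zero =>
    rw [pow_zero, Matrix.one_apply]
    split_ifs <;> norm_num
  | succ s ih =>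
    rw [pow_succ, Matrix.mul_apply]
    exact sum_nonneg fun k _ => mul_nonneg (ih i k) (hA0 k j)

lemma pow_row (hA1 : ∀ i, ∑ j, A i j = 1) (s : ℕ) (i : V) : ∑ j, (A ^ s) i j = 1 := by
  induction s generalizing i with
  | zero =>
    simp [Matrix.one_apply]
  | succ s ih =>
    rw [pow_succ]
    simp only [Matrix.mul_apply]
    rw [sum_comm]
    simp only [← mul_sum, hA1, mul_one]
    exact ih i

lemma pow_rev (hrev : ∀ i j, w i * A i j = w j * A j i) (s : ℕ) (i j : V) :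
    w i * (A ^ s) i j = w j * (A ^ s) j i := by
  induction s generalizing i j with
  | zero =>
    simp only [pow_zero, Matrix.one_apply]
    by_cases h : i = j
    · subst h; rfl
    · rw [if_neg h, if_neg (Ne.symm h)]; simp
  | succ s ih =>
    have e1 : (A ^ (s + 1)) i j = (A ^ s * A) i j := by rw [pow_succ]
    have e2 : (A ^ (s + 1)) j i = (A * A ^ s) j i := by rw [pow_succ']
    rw [e1, e2]
    simp only [Matrix.mul_apply, mul_sum]
    refine sum_congr rfl fun k _ => ?_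
    have h1 := ih i k
    have h2 := hrev k j
    calc w i * ((A ^ s) i k * A k j) = (w i * (A ^ s) i k) * A k j := by ring
      _ = (w k * (A ^ s) k i) * A k j := by rw [h1]
      _ = (A ^ s) k i * (w k * A k j) := by ring
      _ = (A ^ s) k i * (w j * A j k) := by rw [h2]
      _ = _ := by ring

/-- The Cesàro average of the powers of `A`, as a function. -/
noncomputable def Mav (A : Matrix V V ℝ) (t : ℕ) (i j : V) : ℝ :=
  (1 / (t : ℝ)) * ∑ s ∈ Icc 1 t, (A ^ s) i j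

lemma Mav_eq (A : Matrix V V ℝ) (t : ℕ) (i j : V) :
    ((1 / (t : ℝ)) • ∑ s ∈ Icc 1 t, A ^ s) i j = Mav A t i j := by
  rw [Matrix.smul_apply, Matrix.sum_apply, Mav, smul_eq_mul]

lemma Mav_nonneg (hA0 : ∀ i j, 0 ≤ A i j) (t : ℕ) (i j : V) : 0 ≤ Mav A t i j :=
  mul_nonneg (by positivity) (sum_nonneg fun s _ => pow_entry_nonneg hA0 s i j)

lemma Mav_row (hA1 : ∀ i, ∑ j, A i j = 1) {t : ℕ} (ht : 1 ≤ t) (i : V) : ∑ j, Mav A t i j = 1 := by
  have ht' : (t : ℝ) ≠ 0 := by positivity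
  simp only [Mav]
  rw [← mul_sum, sum_comm]
  simp only [pow_row hA1, sum_const, Nat.card_Icc, Nat.add_sub_cancel, nsmul_eq_mul, mul_one]
  field_simp

lemma Mav_rev (hrev : ∀ i j, w i * A i j = w j * A j i) (t : ℕ) (i j : V) :
    w i * Mav A t i j = w j * Mav A t j i := by
  simp only [Mav]
  rw [mul_left_comm, mul_sum, mul_left_comm (w j), mul_sum (a := w j)]
  congr 1
  exact sum_congr rfl fun s _ => pow_rev hrev s i j

lemma tele (f : ℕ → ℝ) (t : ℕ) :
    ∑ s ∈ Icc 1 t, f s - ∑ s ∈ Icc 1 t, f (s + 1) = f 1 - f (t + 1) := by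
  induction t with
  | zero => simp
  | succ t ih =>
    rw [sum_Icc_succ_top (by omega), sum_Icc_succ_top (by omega)]
    linarith

lemma A_mul_Mav (A : Matrix V V ℝ) (t : ℕ) (i j : V) :
    ∑ k, A i k * Mav A t k j = (1 / (t : ℝ)) * ∑ s ∈ Icc 1 t, (A ^ (s + 1)) i j := by
  simp only [Mav]
  have : ∀ s, (A ^ (s + 1)) i j = ∑ k, A i k * (A ^ s) k j := fun s => by
    rw [pow_succ', Matrix.mul_apply]
  simp only [this]
  rw [sum_comm, mul_sum]
  refine sum_congr rfl fun k _ => ?_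
  rw [mul_left_comm, mul_sum]

lemma Mav_mul_A (A : Matrix V V ℝ) (t : ℕ) (i j : V) :
    ∑ k, Mav A t i k * A k j = (1 / (t : ℝ)) * ∑ s ∈ Icc 1 t, (A ^ (s + 1)) i j := by
  simp only [Mav]
  have : ∀ s, (A ^ (s + 1)) i j = ∑ k, (A ^ s) i k * A k j := fun s => by
    rw [pow_succ, Matrix.mul_apply]
  simp only [this]
  rw [sum_comm, mul_sum]
  refine sum_congr rfl fun k _ => ?_
  rw [mul_assoc, sum_mul]

lemma Mav_comm (A : Matrix V V ℝ) (t : ℕ) (i j : V) :
    ∑ k, Mav A t i k * A k j = ∑ k, A i k * Mav A t k j := by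
  rw [Mav_mul_A, A_mul_Mav]

lemma Mav_tele (A : Matrix V V ℝ) (t : ℕ) (i j : V) :
    Mav A t i j - ∑ k, A i k * Mav A t k j = (1 / (t : ℝ)) * (A i j - (A ^ (t + 1)) i j) := by
  rw [A_mul_Mav, Mav, ← mul_sub, tele (fun s => (A ^ s) i j) t, pow_one]

/-- The energy `V_m = ∑∑ w_i (A^m)_{ij} d_{ij}²`. -/
noncomputable def En (w : V → ℝ) (A : Matrix V V ℝ) (d : V → V → ℝ) (m : ℕ) : ℝ :=
  ∑ i, ∑ j, w i * (A ^ m) i j * d i j ^ 2

variable {d : V → V → ℝ}

lemma En_zero (hdd : ∀ k, d k k = 0) : En w A d 0 = 0 := by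
  simp only [En, pow_zero, Matrix.one_apply]
  refine sum_eq_zero fun i _ => sum_eq_zero fun j _ => ?_
  by_cases h : i = j
  · subst h; simp [hdd]
  · simp [h]

lemma En_nonneg (hw : ∀ i, 0 ≤ w i) (hA0 : ∀ i j, 0 ≤ A i j) (m : ℕ) : 0 ≤ En w A d m :=
  sum_nonneg fun i _ => sum_nonneg fun j _ =>
    mul_nonneg (mul_nonneg (hw i) (pow_entry_nonneg hA0 m i j)) (sq_nonneg _)

lemma pow_stat (hrev : ∀ i j, w i * A i j = w j * A j i) (hA1 : ∀ i, ∑ j, A i j = 1) (s : ℕ) (j : V) :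
    ∑ i, w i * (A ^ s) i j = w j :=
  stat (pow_rev hrev s) (pow_row hA1 s) j

lemma En_add (hw : ∀ i, 0 ≤ w i) (hrev : ∀ i j, w i * A i j = w j * A j i)
    (hA0 : ∀ i j, 0 ≤ A i j) (hA1 : ∀ i, ∑ j, A i j = 1)
    (hd0 : ∀ k l, 0 ≤ d k l) (htri : ∀ k l m, d k m ≤ d k l + d l m) (m n : ℕ) :
    En w A d (m + n) ≤ 2 * En w A d m + 2 * En w A d n := by
  have h1 : ∀ i j k, d i j ^ 2 ≤ 2 * d i k ^ 2 + 2 * d k j ^ 2 := by
    intro i j k
    have h2 := htri i k j
    have h3 := hd0 i j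
    nlinarith [sq_nonneg (d i k - d k j), sq_nonneg (d i k + d k j - d i j)]
  have h2 : En w A d (m + n) ≤
      ∑ i, ∑ j, ∑ k, w i * ((A ^ m) i k * (A ^ n) k j) * (2 * d i k ^ 2 + 2 * d k j ^ 2) := by
    refine sum_le_sum fun i _ => sum_le_sum fun j _ => ?_
    rw [pow_add, Matrix.mul_apply, mul_sum, sum_mul]
    refine sum_le_sum fun k _ => ?_
    refine mul_le_mul_of_nonneg_left (h1 i j k) ?_
    exact mul_nonneg (hw i) (mul_nonneg (pow_entry_nonneg hA0 m i k) (pow_entry_nonneg hA0 n k j))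
  refine h2.trans (le_of_eq ?_)
  have h3 : ∀ i j k, w i * ((A ^ m) i k * (A ^ n) k j) * (2 * d i k ^ 2 + 2 * d k j ^ 2) =
      2 * (w i * (A ^ m) i k * d i k ^ 2 * (A ^ n) k j) +
        2 * ((w i * (A ^ m) i k) * ((A ^ n) k j * d k j ^ 2)) := fun i j k => by ring
  simp only [h3, sum_add_distrib, ← mul_sum]
  congr 1
  · congr 1
    simp only [En]
    refine sum_congr rfl fun i _ => ?_
    rw [sum_comm]
    refine sum_congr rfl fun k _ => ?_
    rw [← mul_sum, pow_row hA1, mul_one]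
  · congr 1
    simp only [En]
    calc ∑ i, ∑ j, ∑ k, w i * (A ^ m) i k * ((A ^ n) k j * d k j ^ 2)
        = ∑ j, ∑ i, ∑ k, w i * (A ^ m) i k * ((A ^ n) k j * d k j ^ 2) := sum_comm
      _ = ∑ j, ∑ k, ∑ i, w i * (A ^ m) i k * ((A ^ n) k j * d k j ^ 2) :=
          sum_congr rfl fun j _ => sum_comm
      _ = ∑ k, ∑ j, ∑ i, w i * (A ^ m) i k * ((A ^ n) k j * d k j ^ 2) := sum_comm
      _ = _ := by
          refine sum_congr rfl fun k _ => sum_congr rfl fun j _ => ?_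
          rw [← sum_mul, pow_stat hrev hA1, mul_assoc]

lemma avg_bound (E : ℕ → ℝ) (hE0 : E 0 = 0) (hnn : ∀ m, 0 ≤ E m)
    (hadd : ∀ m n, E (m + n) ≤ 2 * E m + 2 * E n) (t : ℕ) :
    (t : ℝ) * E t ≤ 4 * ∑ s ∈ Icc 1 t, E s ∧ (t : ℝ) * E (t + 1) ≤ 4 * ∑ s ∈ Icc 1 t, E s := by
  have hcard : ((Icc 1 t).card : ℝ) = t := by simp
  constructor
  · have h1 : ∑ s ∈ Icc 1 t, E t ≤ ∑ s ∈ Icc 1 t, (2 * E s + 2 * E (t - s)) := by
      refine sum_le_sum fun s hs => ?_
      have hs' := mem_Icc.mp hs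
      have := hadd s (t - s)
      rwa [Nat.add_sub_cancel' hs'.2] at this
    have h2 : ∑ s ∈ Icc 1 t, E (t - s) = ∑ u ∈ range t, E u := by
      refine sum_nbij' (fun s => t - s) (fun u => t - u) ?_ ?_ ?_ ?_ ?_
      · intro s hs; simp only [mem_Icc] at hs; simp only [mem_range]; omega
      · intro u hu; simp only [mem_range] at hu; simp only [mem_Icc]; omega
      · intro s hs; simp only [mem_Icc] at hs; omega
      · intro u hu; simp only [mem_range] at hu; omega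
      · intro s hs; rfl
    have h3 : ∑ u ∈ range t, E u ≤ ∑ s ∈ Icc 1 t, E s := by
      cases t with
      | zero => simp
      | succ t =>
        rw [sum_range_succ']
        rw [hE0, add_zero]
        have : ∑ s ∈ Icc 1 (t + 1), E s = ∑ u ∈ range (t + 1), E (u + 1) := by
          refine sum_nbij' (fun s => s - 1) (fun u => u + 1) ?_ ?_ ?_ ?_ ?_
          · intro s hs; simp only [mem_Icc] at hs; simp only [mem_range]; omega
          · intro u hu; simp only [mem_range] at hu; simp only [mem_Icc]; omega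
          · intro s hs; simp only [mem_Icc] at hs; omega
          · intro u hu; simp
          · intro s hs
            simp only [mem_Icc] at hs
            congr 1; omega
        rw [this, sum_range_succ]
        have := hnn (t + 1)
        linarith
    rw [sum_const, nsmul_eq_mul, hcard, sum_add_distrib, ← mul_sum, ← mul_sum, h2] at h1
    linarith
  · have h1 : ∑ s ∈ Icc 1 t, E (t + 1) ≤ ∑ s ∈ Icc 1 t, (2 * E s + 2 * E (t + 1 - s)) := by
      refine sum_le_sum fun s hs => ?_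
      have hs' := mem_Icc.mp hs
      have := hadd s (t + 1 - s)
      rwa [Nat.add_sub_cancel' (by omega)] at this
    have h2 : ∑ s ∈ Icc 1 t, E (t + 1 - s) = ∑ s ∈ Icc 1 t, E s := by
      refine sum_nbij' (fun s => t + 1 - s) (fun u => t + 1 - u) ?_ ?_ ?_ ?_ ?_
      · intro s hs; simp only [mem_Icc] at hs; simp only [mem_Icc]; omega
      · intro u hu; simp only [mem_Icc] at hu; simp only [mem_Icc]; omega
      · intro s hs; simp only [mem_Icc] at hs; omega
      · intro u hu; simp only [mem_Icc] at hu; omega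
      · intro s hs; rfl
    rw [sum_const, nsmul_eq_mul, hcard, sum_add_distrib, ← mul_sum, ← mul_sum, h2] at h1
    linarith

lemma En_avg (w : V → ℝ) (d : V → V → ℝ) (A : Matrix V V ℝ) (t : ℕ) :
    ∑ i, ∑ j, w i * Mav A t i j * d i j ^ 2 = (1 / (t : ℝ)) * ∑ s ∈ Icc 1 t, En w A d s := by
  simp only [En, Mav]
  rw [mul_sum]
  calc ∑ i, ∑ j, w i * (1 / (t : ℝ) * ∑ s ∈ Icc 1 t, (A ^ s) i j) * d i j ^ 2
      = ∑ i, ∑ j, ∑ s ∈ Icc 1 t, 1 / (t : ℝ) * (w i * (A ^ s) i j * d i j ^ 2) := by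
        refine sum_congr rfl fun i _ => sum_congr rfl fun j _ => ?_
        rw [mul_left_comm, mul_assoc, mul_sum, sum_mul, mul_sum]
    _ = ∑ i, ∑ s ∈ Icc 1 t, ∑ j, 1 / (t : ℝ) * (w i * (A ^ s) i j * d i j ^ 2) :=
        sum_congr rfl fun i _ => sum_comm
    _ = ∑ s ∈ Icc 1 t, ∑ i, ∑ j, 1 / (t : ℝ) * (w i * (A ^ s) i j * d i j ^ 2) := sum_comm
    _ = _ := by
        refine sum_congr rfl fun s _ => ?_
        simp only [mul_sum]

/-- Final form of the energy estimate. -/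
theorem markov_energy {t : ℕ} (ht : 1 ≤ t) (hw : ∀ i, 0 ≤ w i)
    (hrev : ∀ i j, w i * A i j = w j * A j i)
    (hA0 : ∀ i j, 0 ≤ A i j) (hA1 : ∀ i, ∑ j, A i j = 1)
    (hd0 : ∀ k l, 0 ≤ d k l) (hds : ∀ k l, d k l = d l k) (htri : ∀ k l m, d k m ≤ d k l + d l m)
    (hdd : ∀ k, d k k = 0) :
    (t : ℝ) * ∑ i, ∑ j, w i * A i j *
        (9 * ((T (Mav A t) d i + T (Mav A t) d j) * e (Mav A t) d i j) + 2 * e (Mav A t) d i j ^ 2) ≤
      198 * ∑ i, ∑ j, w i * Mav A t i j * d i j ^ 2 := by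
  have ht0 : (0 : ℝ) < t := by exact_mod_cast ht
  have hQ := Q_bound (w := w) (A := A) (M := Mav A t) (A1 := fun i j => (A ^ (t + 1)) i j)
    (At := fun i j => (A ^ t) i j) (d := d) (t := (t : ℝ)) ht0 hw hrev
    (Mav_nonneg hA0 t) (Mav_row hA1 ht) (Mav_rev hrev t) hA0 hA1
    (pow_entry_nonneg hA0 t) (pow_row hA1 t) (pow_entry_nonneg hA0 (t + 1))
    (pow_stat hrev hA1 (t + 1))
    (fun i l => by rw [pow_succ', Matrix.mul_apply])
    (Mav_tele A t) (Mav_comm A t) hd0 hds htri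
  have hb := avg_bound (En w A d) (En_zero hdd) (En_nonneg hw hA0)
    (En_add hw hrev hA0 hA1 hd0 htri) t
  rw [En_avg]
  refine hQ.trans ?_
  change (27 / 2) * En w A d t + 72 * _ + 18 * En w A d (t + 1) ≤ _
  rw [En_avg]
  have e : 4 * ((1 / (t : ℝ)) * ∑ s ∈ Icc 1 t, En w A d s) = (4 * ∑ s ∈ Icc 1 t, En w A d s) / t := by ring
  have h1 : En w A d t ≤ 4 * ((1 / (t : ℝ)) * ∑ s ∈ Icc 1 t, En w A d s) := by
    rw [e, le_div_iff₀ ht0]
    linarith [hb.1]
  have h2 : En w A d (t + 1) ≤ 4 * ((1 / (t : ℝ)) * ∑ s ∈ Icc 1 t, En w A d s) := by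
    rw [e, le_div_iff₀ ht0]
    linarith [hb.2]
  linarith

end powers

end Crest.Agent.Lib.L1Cot
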